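import Vale.Agent.P327.H228.Main

/-!
Bijections that preserve comparability: the order of a final segment of `D_T / I` is determined by
its comparability relation.
-/

open MeasureTheory Topology Filter

namespace Vale.Agent.P327.H228

theorem le_iff_comp {P : Type*} [PartialOrder P] (h1 : ∀ x : P, {z | z ≤ x}.Countable)
    (h2 : ∀ x y : P, x < y → ¬ {z | (z ≤ x ∨ x ≤ z) ∧ ¬ (z ≤ y ∨ y ≤ z)}.Countable) (x y : P) :
    x ≤ y ↔ x = y ∨ ((x ≤ y ∨ y ≤ x) ∧
      {z | (z ≤ y ∨ y ≤ z) ∧ ¬ (z ≤ x ∨ x ≤ z)}.Countable) := by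
  constructor
  · intro h
    rcases eq_or_lt_of_le h with h | h
    · exact Or.inl h
    · refine Or.inr ⟨Or.inl h.le, (h1 y).mono fun z hz => ?_⟩
      rcases hz.1 with h3 | h3
      · exact h3
      · exact absurd (Or.inr (h.le.trans h3)) hz.2
  · rintro (h | ⟨h | h, hc⟩)
    · exact h.le
    · exact h
    · rcases eq_or_lt_of_le h with h3 | h3
      · exact h3.ge
      · exact absurd hc (h2 y x h3)

theorem orderIso_of_comp {P Q : Type*} [PartialOrder P] [PartialOrder Q]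
    (hP1 : ∀ x : P, {z | z ≤ x}.Countable)
    (hP2 : ∀ x y : P, x < y → ¬ {z | (z ≤ x ∨ x ≤ z) ∧ ¬ (z ≤ y ∨ y ≤ z)}.Countable)
    (hQ1 : ∀ x : Q, {z | z ≤ x}.Countable)
    (hQ2 : ∀ x y : Q, x < y → ¬ {z | (z ≤ x ∨ x ≤ z) ∧ ¬ (z ≤ y ∨ y ≤ z)}.Countable)
    (e : P ≃ Q) (he : ∀ x y, (x ≤ y ∨ y ≤ x) ↔ (e x ≤ e y ∨ e y ≤ e x)) (x y : P) :
    e x ≤ e y ↔ x ≤ y := by
  rw [le_iff_comp hP1 hP2, le_iff_comp hQ1 hQ2, e.injective.eq_iff, ← he]
  have h : {z | (z ≤ e y ∨ e y ≤ z) ∧ ¬ (z ≤ e x ∨ e x ≤ z)} =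
      e '' {z | (z ≤ y ∨ y ≤ z) ∧ ¬ (z ≤ x ∨ x ≤ z)} := by
    ext z
    constructor
    · intro hz
      refine ⟨e.symm z, ?_, e.apply_symm_apply z⟩
      have h3 := he (e.symm z) y
      have h4 := he (e.symm z) x
      rw [e.apply_symm_apply] at h3 h4
      exact ⟨h3.2 hz.1, fun h5 => hz.2 (h4.1 h5)⟩
    · rintro ⟨w, hw, rfl⟩
      exact ⟨(he w y).1 hw.1, fun h5 => hw.2 ((he w x).2 h5)⟩
  have h' : ∀ S : Set P, (e '' S).Countable ↔ S.Countable := fun S =>
    ⟨fun hS => Set.countable_of_injective_of_countable_image e.injective.injOn hS,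
      fun hS => hS.image e⟩
  rw [h, h']

section

variable {I J : Order.Ideal DT}

theorem countable_below (hI : (I : Set DT).Countable) (q : DQ I) : {z | z ≤ q}.Countable := by
  refine ((isId_low hI q).ctb.image fun X => cls I (dr X)).mono fun z hz => ?_
  obtain ⟨Z, rfl⟩ := cls_dr_surj z
  exact ⟨Z, mem_low.2 hz, rfl⟩

theorem upper_h1 (hI : (I : Set DT).Countable) {U : Set (DQ I)} (x : U) : {z : U | z ≤ x}.Countable :=
  (countable_below hI (x : DQ I)).preimage_of_injOn (f := fun z : U => (z : DQ I))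
    Subtype.val_injective.injOn

theorem upper_h2 (hI : (I : Set DT).Countable) {U : Set (DQ I)} (hU : IsUpperSet U) (x y : U)
    (hxy : x < y) : ¬ {z : U | (z ≤ x ∨ x ≤ z) ∧ ¬ (z ≤ y ∨ y ≤ z)}.Countable := by
  intro hc
  have hK := isId_idr hI
  obtain ⟨A, hA⟩ := cls_dr_surj (x : DQ I)
  obtain ⟨B, hB⟩ := cls_dr_surj (y : DQ I)
  have hmem : ∀ G : Om, cls I (dr (jn A G)) ∈ U := fun G =>
    hU (hA ▸ cls_ge_of_red (red_jn_left _ _)) x.2
  let q : Om → U := fun G => ⟨cls I (dr (jn A G)), hmem G⟩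
  have hfib : ∀ C : Om, {G : Om | RI (idr I) (jn A G) C}.Countable := fun C =>
    (countable_ri hK C).mono fun G hG => RI.red_trans (red_jn_right _ _) hG
  -- countably many `G` are mapped into the set
  have hT : {G : Om | q G ∈ {z : U | (z ≤ x ∨ x ≤ z) ∧ ¬ (z ≤ y ∨ y ≤ z)}}.Countable := by
    have h3 : {G : Om | q G ∈ {z : U | (z ≤ x ∨ x ≤ z) ∧ ¬ (z ≤ y ∨ y ≤ z)}} ⊆
        ⋃ s ∈ {z : U | (z ≤ x ∨ x ≤ z) ∧ ¬ (z ≤ y ∨ y ≤ z)}, {G : Om | q G = s} := fun G hG =>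
      Set.mem_iUnion₂.2 ⟨q G, hG, rfl⟩
    refine (hc.biUnion fun s _ => ?_).mono h3
    obtain ⟨C, hC⟩ := cls_dr_surj (s : DQ I)
    refine (hfib C).mono fun G hG => ?_
    change q G = s at hG
    have h4 : cls I (dr (jn A G)) = s := congrArg Subtype.val hG
    change RI (idr I) (jn A G) C
    rw [← cls_dr_le_iff, h4, hC]
  have e1 : ∀ᶠ G in residual Om, q G ∉ {z : U | (z ≤ x ∨ x ≤ z) ∧ ¬ (z ≤ y ∨ y ≤ z)} :=
    isMeagre_of_countable hT
  have e2 : ∀ᶠ G in residual Om, ¬ RI (idr I) (jn A G) B := isMeagre_of_countable (hfib B)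
  have e3 : ∀ᶠ G in residual Om, ¬ RI (idr I) B (jn A G) := by
    by_contra hne
    have h4 := not_meagre_ri hK hne
    rw [← cls_dr_le_iff, hA, hB] at h4
    exact absurd h4 (not_le_of_gt hxy)
  obtain ⟨G, g1, g2, g3⟩ := (dense_of_mem_residual (e1.and (e2.and e3))).nonempty
  apply g1
  refine ⟨Or.inr ?_, ?_⟩
  · change (x : DQ I) ≤ cls I (dr (jn A G))
    rw [← hA]
    exact cls_ge_of_red (red_jn_left _ _)
  · rintro (h4 | h4)
    · apply g2
      rw [← cls_dr_le_iff, hB]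
      exact h4
    · apply g3
      rw [← cls_dr_le_iff, hB]
      exact h4

/-- A comparability preserving bijection between final segments of quotients is an isomorphism. -/
theorem core_comp (hI : (I : Set DT).Countable) (hJ : (J : Set DT).Countable) {U : Set (DQ I)}
    {V : Set (DQ J)} (hU : IsUpperSet U) (hV : IsUpperSet V) (e : U ≃ V)
    (he : ∀ x y : U, (x ≤ y ∨ y ≤ x) ↔ (e x ≤ e y ∨ e y ≤ e x)) (x : U) (a : DT) :
    cls I a ≤ x ↔ cls J a ≤ e x := by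
  have h := orderIso_of_comp (upper_h1 hI) (upper_h2 hI hU) (upper_h1 hJ) (upper_h2 hJ hV) e he
  exact core hI hJ hU hV ⟨e, fun {x y} => h x y⟩ x a

theorem eq_of_low {q q' : DQ I} (h : ∀ a, cls I a ≤ q ↔ cls I a ≤ q') : q = q' := by
  obtain ⟨a, rfl⟩ := cls_surj q
  obtain ⟨b, rfl⟩ := cls_surj q'
  exact le_antisymm ((h a).1 le_rfl) ((h b).2 le_rfl)

/-- Final segments of one quotient. -/
theorem final_rigid (hI : (I : Set DT).Countable) {U V : Set (DQ I)} (hU : IsUpperSet U)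
    (hV : IsUpperSet V) (e : U ≃ V)
    (he : ∀ x y : U, (x ≤ y ∨ y ≤ x) ↔ (e x ≤ e y ∨ e y ≤ e x)) :
    U = V ∧ ∀ x : U, (e x : DQ I) = x := by
  have h : ∀ x : U, (e x : DQ I) = x := fun x =>
    (eq_of_low fun a => core_comp hI hI hU hV e he x a).symm
  refine ⟨Set.Subset.antisymm (fun x hx => ?_) (fun y hy => ?_), h⟩
  · have h1 : (e ⟨x, hx⟩ : DQ I) = x := h ⟨x, hx⟩
    rw [← h1]; exact (e ⟨x, hx⟩).2
  · have h1 := h (e.symm ⟨y, hy⟩)
    rw [e.apply_symm_apply] at h1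
    change y = _ at h1
    rw [h1]; exact (e.symm ⟨y, hy⟩).2

theorem red_zero (X : Om) : Red 0 X := by
  have : (0 : Om) = X + X := (om_add_self _).symm
  rw [this]
  exact (red_add _ _).trans (jn_red (Red.refl _) (Red.refl _))

theorem mem_iff_cls (a : DT) : a ∈ I ↔ cls I a ≤ cls I (dr 0) := by
  rw [cls_le_iff]
  constructor
  · intro ha
    exact ⟨a, ha, fun u _ h => h⟩
  · rintro ⟨c, hc, h⟩
    refine I.lower (h c ?_ le_rfl) hc
    obtain ⟨C, rfl⟩ := dr_surj c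
    exact (dr_le_iff _ _).2 (red_zero _)

/-- Isomorphic quotients. -/
theorem quot_rigid (hI : (I : Set DT).Countable) (hJ : (J : Set DT).Countable) (e : DQ I ≃ DQ J)
    (he : ∀ x y, (x ≤ y ∨ y ≤ x) ↔ (e x ≤ e y ∨ e y ≤ e x)) :
    I = J ∧ ∀ a : DT, e (cls I a) = cls J a := by
  let E : (Set.univ : Set (DQ I)) ≃ (Set.univ : Set (DQ J)) :=
    (Equiv.Set.univ _).trans (e.trans (Equiv.Set.univ _).symm)
  have hE : ∀ x y : (Set.univ : Set (DQ I)), (x ≤ y ∨ y ≤ x) ↔ (E x ≤ E y ∨ E y ≤ E x) :=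
    fun x y => he x y
  have h : ∀ (q : DQ I) (a : DT), cls I a ≤ q ↔ cls J a ≤ e q := fun q a =>
    core_comp hI hJ isUpperSet_univ isUpperSet_univ E hE ⟨q, Set.mem_univ _⟩ a
  -- the bottom elements correspond
  have hbot : e (cls I (dr 0)) = cls J (dr 0) := by
    obtain ⟨X, hX⟩ := cls_dr_surj (e.symm (cls J (dr 0)))
    apply le_antisymm
    · have h1 : cls I (dr X) ≤ e.symm (cls J (dr 0)) := hX.le
      have h2 := (h _ _).1 h1
      rw [e.apply_symm_apply] at h2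
      -- `e` is monotone
      obtain ⟨B, hB⟩ := cls_dr_surj (e (cls I (dr 0)))
      have h3 : cls I (dr B) ≤ cls I (dr 0) := (h _ _).2 hB.le
      have h4 : cls I (dr B) ≤ e.symm (cls J (dr 0)) := h3.trans (by
        rw [← hX]; exact cls_ge_of_red (red_zero _))
      have h5 := (h _ _).1 h4
      rw [e.apply_symm_apply, hB] at h5
      exact h5
    · obtain ⟨B, hB⟩ := cls_dr_surj (e (cls I (dr 0)))
      rw [← hB]
      exact cls_ge_of_red (red_zero _)
  have hIJ : I = J := by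
    ext a
    rw [SetLike.mem_coe, SetLike.mem_coe, mem_iff_cls, mem_iff_cls, h, hbot]
  subst hIJ
  refine ⟨rfl, fun a => (eq_of_low fun b => h (cls I a) b).symm⟩

end

/-- The ideal of the computable sets. -/
noncomputable def I0 : Order.Ideal DT := Order.Ideal.principal (dr 0)

theorem I0_ctb : (I0 : Set DT).Countable := by
  refine ((countable_red 0).image dr).mono fun a ha => ?_
  obtain ⟨A, rfl⟩ := dr_surj a
  exact ⟨A, (dr_le_iff _ _).1 (Order.Ideal.mem_principal.1 ha), rfl⟩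

theorem cls_I0 (a b : DT) : cls I0 a ≤ cls I0 b ↔ a ≤ b := by
  rw [cls_le_iff]
  constructor
  · rintro ⟨c, hc, h⟩
    refine h b le_rfl ((Order.Ideal.mem_principal.1 hc).trans ?_)
    obtain ⟨B, rfl⟩ := dr_surj b
    exact (dr_le_iff _ _).2 (red_zero _)
  · intro h
    exact ⟨dr 0, Order.Ideal.mem_principal.2 le_rfl, fun u hu _ => h.trans hu⟩

/-- `D_T` and its quotient by the ideal of the computable sets. -/
noncomputable def isoI0 : DT ≃o DQ I0 where
  toEquiv := Equiv.ofBijective (cls I0) ⟨fun a b h => le_antisymm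
    ((cls_I0 a b).1 h.le) ((cls_I0 b a).1 h.ge), cls_surj⟩
  map_rel_iff' := cls_I0 _ _

/-- Final segments of `D_T`. -/
theorem final_rigid_DT {U V : Set DT} (hU : IsUpperSet U) (hV : IsUpperSet V) (e : U ≃ V)
    (he : ∀ x y : U, (x ≤ y ∨ y ≤ x) ↔ (e x ≤ e y ∨ e y ≤ e x)) :
    U = V ∧ ∀ x : U, (e x : DT) = x := by
  let U' : Set (DQ I0) := {q | isoI0.symm q ∈ U}
  let V' : Set (DQ I0) := {q | isoI0.symm q ∈ V}
  have hU' : IsUpperSet U' := fun a b hab ha => hU (isoI0.symm.monotone hab) ha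
  have hV' : IsUpperSet V' := fun a b hab ha => hV (isoI0.symm.monotone hab) ha
  let E : U' ≃ V' :=
    { toFun := fun q => ⟨isoI0 (e ⟨isoI0.symm q, q.2⟩), by
        change isoI0.symm (isoI0 _) ∈ V
        rw [isoI0.symm_apply_apply]
        exact (e _).2⟩
      invFun := fun q => ⟨isoI0 (e.symm ⟨isoI0.symm q, q.2⟩), by
        change isoI0.symm (isoI0 _) ∈ U
        rw [isoI0.symm_apply_apply]
        exact (e.symm _).2⟩
      left_inv := fun q => by
        apply Subtype.ext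
        simp
      right_inv := fun q => by
        apply Subtype.ext
        simp }
  have hE : ∀ x y : U', (x ≤ y ∨ y ≤ x) ↔ (E x ≤ E y ∨ E y ≤ E x) := by
    intro x y
    have h := he ⟨isoI0.symm x, x.2⟩ ⟨isoI0.symm y, y.2⟩
    have h1 : ∀ x y : U', (⟨isoI0.symm x, x.2⟩ : U) ≤ ⟨isoI0.symm y, y.2⟩ ↔ x ≤ y := fun x y =>
      isoI0.symm.le_iff_le
    have h2 : ∀ x y : U', e ⟨isoI0.symm x, x.2⟩ ≤ e ⟨isoI0.symm y, y.2⟩ ↔ E x ≤ E y := fun x y =>
      (isoI0.le_iff_le (x := (e ⟨isoI0.symm x, x.2⟩ : DT)) (y := e ⟨isoI0.symm y, y.2⟩)).symm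
    rw [h1, h1, h2, h2] at h
    exact h
  obtain ⟨h1, h2⟩ := final_rigid I0_ctb hU' hV' E hE
  constructor
  · ext a
    have h3 : isoI0 a ∈ U' ↔ isoI0 a ∈ V' := by rw [h1]
    change isoI0.symm (isoI0 a) ∈ U ↔ isoI0.symm (isoI0 a) ∈ V at h3
    rwa [isoI0.symm_apply_apply] at h3
  · intro x
    have hx : isoI0 (x : DT) ∈ U' := by
      change isoI0.symm (isoI0 _) ∈ U
      rw [isoI0.symm_apply_apply]
      exact x.2
    have h3 := h2 ⟨isoI0 x, hx⟩
    change isoI0 (e ⟨isoI0.symm (isoI0 x), hx⟩) = isoI0 x at h3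
    have h4 := isoI0.injective h3
    have h5 : (⟨isoI0.symm (isoI0 x), hx⟩ : U) = x := Subtype.ext (isoI0.symm_apply_apply _)
    rw [h5] at h4
    exact h4

end Vale.Agent.P327.H228
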