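import Mathlib.Computability.TuringDegree
import Mathlib.Order.Ideal

/-!
The partial order of the Turing degrees of subsets of `ℕ`, inside Mathlib's `TuringDegree`, and its
quotients by ideals.
-/

namespace Vale.Agent.P327.H228

open Classical in
/-- The Turing degree of a set `A ⊆ ℕ`: the class of its characteristic function in Mathlib's
`TuringDegree`. -/
noncomputable def degree (A : Set ℕ) : TuringDegree :=
  toAntisymmetrization TuringReducible fun n => Part.some (if n ∈ A then 1 else 0)

/-- The Turing degrees of all subsets of `ℕ`, ordered by Turing reducibility (the order of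
Mathlib's `TuringDegree`). -/
abbrev DT : Type := Set.range degree

/-- The degrees, preordered modulo the ideal `I`. -/
structure Mod (I : Order.Ideal DT) where
  val : DT

/-- `a ≤ b` modulo `I`: for some `c ∈ I`, `a` is below every upper bound of `b` and `c`, that is
`a ≤ b ∨ c`. -/
instance (I : Order.Ideal DT) : Preorder (Mod I) where
  le a b := ∃ c ∈ I, ∀ u, b.val ≤ u → c ≤ u → a.val ≤ u
  le_refl a := by
    obtain ⟨c, hc⟩ := I.nonempty
    exact ⟨c, hc, fun u h _ => h⟩
  le_trans a b d := by
    rintro ⟨c, hc, h⟩ ⟨c', hc', h'⟩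
    obtain ⟨k, hk, h1, h2⟩ := I.directed c hc c' hc'
    exact ⟨k, hk, fun u hu hk => h u (h' u hu (h2.trans hk)) (h1.trans hk)⟩

/-- The quotient `D_T / I`, a partial order. -/
abbrev DQ (I : Order.Ideal DT) : Type := Antisymmetrization (Mod I) (· ≤ ·)

/-- The class of the degree `a` in `D_T / I`. -/
def cls (I : Order.Ideal DT) (a : DT) : DQ I := toAntisymmetrization (· ≤ ·) ⟨a⟩

end Vale.Agent.P327.H228
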