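import Vale.Agent.P327.Bdl.B1

/-!
Turing reducibility modulo a countable ideal, and isomorphisms between the corresponding quotients
of the Turing degrees (presented by functions on reals).
-/

open MeasureTheory Topology Filter

namespace Vale.Agent.P327.H228

/-- `X` is reducible to `Y` modulo `K`. -/
def RI (K : Set Om) (X Y : Om) : Prop := ∃ Z ∈ K, Red X (jn Y Z)

/-- `K` is a countable nonempty set of reals closed under joins. -/
structure IsId (K : Set Om) : Prop where
  ctb : K.Countable
  ne : K.Nonempty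
  join : ∀ X ∈ K, ∀ Y ∈ K, jn X Y ∈ K

section

variable {K L : Set Om}

theorem RI.of_red (hK : IsId K) {X Y : Om} (h : Red X Y) : RI K X Y := by
  obtain ⟨Z, hZ⟩ := hK.ne
  exact ⟨Z, hZ, h.trans (red_jn_left _ _)⟩

theorem RI.refl (hK : IsId K) (X : Om) : RI K X X := RI.of_red hK (Red.refl X)

theorem RI.trans (hK : IsId K) {X Y W : Om} (h : RI K X Y) (h' : RI K Y W) : RI K X W := by
  obtain ⟨Z, hZ, h1⟩ := h
  obtain ⟨Z', hZ', h2⟩ := h'
  refine ⟨jn Z Z', hK.join _ hZ _ hZ', h1.trans (jn_red (h2.trans ?_) ?_)⟩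
  · exact jn_mono (Red.refl _) (red_jn_right _ _)
  · exact (red_jn_left _ _).trans (red_jn_right _ _)

theorem RI.trans_red {X Y W : Om} (h : RI K X Y) (h' : Red Y W) : RI K X W := by
  obtain ⟨Z, hZ, h1⟩ := h
  exact ⟨Z, hZ, h1.trans (jn_mono h' (Red.refl _))⟩

theorem RI.red_trans {X Y W : Om} (h : Red X Y) (h' : RI K Y W) : RI K X W := by
  obtain ⟨Z, hZ, h1⟩ := h'
  exact ⟨Z, hZ, h.trans h1⟩

theorem RI.jn_ri (hK : IsId K) {X Y W : Om} (h : RI K X W) (h' : RI K Y W) :
    RI K (jn X Y) W := by
  obtain ⟨Z, hZ, h1⟩ := h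
  obtain ⟨Z', hZ', h2⟩ := h'
  refine ⟨jn Z Z', hK.join _ hZ _ hZ', jn_red (h1.trans ?_) (h2.trans ?_)⟩
  · exact jn_mono (Red.refl _) (red_jn_left _ _)
  · exact jn_mono (Red.refl _) (red_jn_right _ _)

theorem RI.jn_mono (hK : IsId K) {X Y X' Y' : Om} (h : RI K X X') (h' : RI K Y Y') :
    RI K (jn X Y) (jn X' Y') :=
  RI.jn_ri hK (h.trans_red (red_jn_left _ _)) (h'.trans_red (red_jn_right _ _))

theorem countable_ri (hK : IsId K) (B : Om) : {Z : Om | RI K Z B}.Countable := by
  have h : {Z : Om | RI K Z B} = ⋃ W ∈ K, {Z : Om | Red Z (jn B W)} := by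
    ext Z
    simp only [RI, Set.mem_ofPred_eq, Set.mem_iUnion, exists_prop]
  rw [h]
  exact hK.ctb.biUnion fun W _ => countable_red _

theorem measurableSet_ri (hK : IsId K) : MeasurableSet {p : Om × Om | RI K p.1 p.2} := by
  have h : {p : Om × Om | RI K p.1 p.2} =
      ⋃ W ∈ K, (fun p : Om × Om => (p.1, jn p.2 W)) ⁻¹' {p : Om × Om | Red p.1 p.2} := by
    ext p
    simp only [RI, Set.mem_ofPred_eq, Set.mem_iUnion, exists_prop, Set.mem_preimage]
  rw [h]
  refine MeasurableSet.biUnion hK.ctb fun W _ => ?_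
  have hm : Measurable (fun p : Om × Om => (p.1, jn p.2 W)) :=
    measurable_fst.prodMk (measurable_jn.comp (measurable_snd.prodMk measurable_const))
  exact hm measurableSet_red

theorem not_meagre_ri (hK : IsId K) {A B : Om} (h : ¬ IsMeagre {s : Om | RI K B (jn A s)}) :
    RI K B A := by
  by_contra hcon
  apply h
  have e : {s : Om | RI K B (jn A s)} = ⋃ W ∈ K, {s : Om | Red B (jn (jn A s) W)} := by
    ext s
    simp only [RI, Set.mem_ofPred_eq, Set.mem_iUnion, exists_prop]
  rw [e]
  refine isMeagre_biUnion hK.ctb fun W hW => ?_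
  by_contra hne
  apply hcon
  refine ⟨W, hW, not_meagre_red fun hm => hne (hm.mono fun s hs => ?_)⟩
  refine Red.trans hs ?_
  refine jn_red (jn_red ?_ (red_jn_right _ _)) ?_
  · exact (red_jn_left _ _).trans (red_jn_left _ _)
  · exact (red_jn_right _ _).trans (red_jn_left _ _)

/-- Relative to any base `B` there is a real whose columns are Turing independent over `B`. -/
theorem exists_indep_over (B : Om) : ∃ A : Om, ∀ n, ¬ Red (col n A) (jn B (delCol n A)) := by
  have key : ∀ e n, IsNowhereDense {A : Om | Maps (enum e) (jn B (delCol n A)) (col n A)} := by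
    intro e n
    rw [IsNowhereDense, Set.eq_empty_iff_forall_notMem]
    intro x hx
    obtain ⟨k, hk⟩ := exists_pre_subset isOpen_interior hx
    -- a point of the set in this cylinder
    have hxc : x ∈ closure {A : Om | Maps (enum e) (jn B (delCol n A)) (col n A)} :=
      interior_subset hx
    obtain ⟨A, hA1, hA2⟩ := mem_closure_iff.1 hxc _ (isOpen_pre (pre x k) k) rfl
    change pre A k = pre x k at hA1
    change Maps (enum e) (jn B (delCol n A)) (col n A) at hA2
    -- flip a bit of column `n` beyond `k`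
    set p : ℕ := Nat.pair n k with hp
    have hkp : k ≤ p := Nat.right_le_pair n k
    obtain ⟨m, hm⟩ := hA2.2 (k + 1)
    set N : ℕ := max m (p + 1) with hN
    let D0 : Om := fun i => if i = p then !(A i) else A i
    have hBA : pre D0 k = pre A k := by
      rw [pre_eq_iff]; intro i hi
      have : i ≠ p := by omega
      simp [D0, this]
    have hBi : D0 ∈ interior (closure {A : Om | Maps (enum e) (jn B (delCol n A)) (col n A)}) :=
      hk D0 (hBA.trans hA1)
    have hBc := interior_subset hBi
    obtain ⟨D, hD1, hD2⟩ := mem_closure_iff.1 hBc _ (isOpen_pre (pre D0 N) N) rfl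
    change pre D N = pre D0 N at hD1
    change Maps (enum e) (jn B (delCol n D)) (col n D) at hD2
    rw [pre_eq_iff] at hD1
    have hpre : pre (jn B (delCol n D)) m = pre (jn B (delCol n A)) m := by
      rw [pre_eq_iff]; intro i hi
      by_cases hpar : i % 2 = 0
      · simp [jn, hpar]
      · simp only [jn, hpar, if_false]
        unfold delCol
        by_cases h1 : (i / 2).unpair.1 = n
        · simp [h1]
        · have h2 : i / 2 ≠ p := by
            intro h3
            apply h1; rw [h3]; simp [hp]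
          simp only [h1, if_false]
          rw [hD1 (i / 2) (by omega)]
          simp [D0, h2]
    have e1 := hA2.1 m
    have e2 := hD2.1 m
    rw [hpre] at e2
    have e2' := e1.symm.trans e2
    rw [pre_eq_iff] at e2'
    have e3 := e2' k (by omega)
    have e4 : D p = D0 p := hD1 p (by omega)
    simp only [col] at e3
    rw [← hp, e4] at e3
    simp [D0] at e3
  have hres : ∀ᶠ A in residual Om, ∀ (e n : ℕ),
      ¬ Maps (enum e) (jn B (delCol n A)) (col n A) := by
    rw [eventually_countable_forall]; intro e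
    rw [eventually_countable_forall]; intro n
    exact (key e n).isMeagre
  obtain ⟨A, hA⟩ := (dense_of_mem_residual hres).nonempty
  refine ⟨A, fun n hn => ?_⟩
  obtain ⟨e, he⟩ := red_iff_enum.1 hn
  exact hA e n he

theorem exists_seq (hK : IsId K) : ∃ z : ℕ → Om, (∀ i, z i ∈ K) ∧ ∀ Z ∈ K, ∃ i, z i = Z := by
  obtain ⟨z, hz⟩ := hK.ctb.exists_eq_range hK.ne
  refine ⟨z, fun i => ?_, fun Z hZ => ?_⟩
  · rw [hz]; exact Set.mem_range_self i
  · rw [hz] at hZ; exact hZ

theorem exists_indep_ri (hK : IsId K) : ∃ A : Om, ∀ n, ¬ RI K (col n A) (delCol n A) := by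
  obtain ⟨z, -, hz⟩ := exists_seq hK
  obtain ⟨A, hA⟩ := exists_indep_over (ofCols z)
  refine ⟨A, fun n hn => hA n ?_⟩
  obtain ⟨Z, hZ, h⟩ := hn
  obtain ⟨i, rfl⟩ := hz Z hZ
  refine h.trans (jn_red (red_jn_right _ _) (Red.trans ?_ (red_jn_left _ _)))
  have e : col i (ofCols z) = z i := by
    funext m
    simp [col, ofCols]
  rw [← e]
  exact red_col i _

theorem exists_ev_ri (hK : IsId K) : ∃ ev : ℕ → Om → Om, (∀ e, Measurable (ev e)) ∧
    ∀ Z B, RI K Z B → ∃ e, ev e B = Z := by
  obtain ⟨ev, ev_meas, -, -, ev_surj⟩ := exists_ev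
  obtain ⟨z, -, hz⟩ := exists_seq hK
  refine ⟨fun e B => ev e.unpair.1 (jn B (z e.unpair.2)), fun e => ?_, fun Z B h => ?_⟩
  · exact (ev_meas _).comp (measurable_jn.comp (measurable_id.prodMk measurable_const))
  · obtain ⟨W, hW, h1⟩ := h
    obtain ⟨i, rfl⟩ := hz W hW
    obtain ⟨e, he⟩ := ev_surj _ _ h1
    refine ⟨Nat.pair e i, ?_⟩
    simpa using he

end

/-- An isomorphism between the quotients modulo `K` and `L`, presented by functions on reals. -/
structure QIso (K L : Set Om) where
  f : Om → Om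
  g : Om → Om
  f_ri : ∀ X Y, RI K X Y ↔ RI L (f X) (f Y)
  g_ri : ∀ X Y, RI L X Y ↔ RI K (g X) (g Y)
  fg : ∀ X, RI L (f (g X)) X ∧ RI L X (f (g X))
  gf : ∀ X, RI K (g (f X)) X ∧ RI K X (g (f X))

namespace QIso

variable {K L : Set Om}

/-- The inverse isomorphism. -/
def symm (π : QIso K L) : QIso L K := ⟨π.g, π.f, π.g_ri, π.f_ri, π.gf, π.fg⟩

theorem f_mono (hK : IsId K) (π : QIso K L) {X Y : Om} (h : Red X Y) : RI L (π.f X) (π.f Y) :=
  (π.f_ri X Y).1 (RI.of_red hK h)

theorem g_mono (hL : IsId L) (π : QIso K L) {X Y : Om} (h : Red X Y) : RI K (π.g X) (π.g Y) :=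
  π.symm.f_mono hL h

theorem g_ri_iff (hK : IsId K) (hL : IsId L) (π : QIso K L) (X Y : Om) :
    RI K (π.g X) Y ↔ RI L X (π.f Y) := by
  constructor
  · intro h
    exact RI.trans hL (π.fg X).2 ((π.f_ri _ _).1 h)
  · intro h
    exact RI.trans hK ((π.g_ri _ _).1 h) (π.gf Y).1

theorem g_jn (hK : IsId K) (hL : IsId L) (π : QIso K L) (X Y : Om) :
    RI K (π.g (jn X Y)) (jn (π.g X) (π.g Y)) := by
  rw [π.g_ri_iff hK hL]
  refine RI.jn_ri hL ?_ ?_
  · rw [← π.g_ri_iff hK hL]; exact RI.of_red hK (red_jn_left _ _)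
  · rw [← π.g_ri_iff hK hL]; exact RI.of_red hK (red_jn_right _ _)

theorem f_jn (hK : IsId K) (hL : IsId L) (π : QIso K L) (X Y : Om) :
    RI L (π.f (jn X Y)) (jn (π.f X) (π.f Y)) :=
  π.symm.g_jn hL hK X Y

end QIso

/-- Step 1: the isomorphism is represented by countably many Borel functions on a comeager set. -/
theorem QIso.exists_borel {K L : Set Om} (hK : IsId K) (hL : IsId L) (π : QIso K L) :
    ∃ F : ℕ → Om → Om, (∀ i, Measurable (F i)) ∧ ∀ᶠ Y in residual Om, ∃ i, F i Y = π.f Y := by
  classical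
  obtain ⟨ev, ev_meas, ev_surj⟩ := exists_ev_ri hK
  obtain ⟨I, hI⟩ := exists_indep_ri hL
  let E : ℕ → Om := fun n => π.g (col n I)
  let C : Om := π.g I
  let F : ℕ → Om → Om := fun i Y n => decide (RI K (E n) (ev i (jn C Y)))
  refine ⟨F, ?_, ?_⟩
  · intro i
    rw [measurable_pi_iff]
    intro n
    have hset : MeasurableSet {Y : Om | RI K (E n) (ev i (jn C Y))} := by
      have hm : Measurable (fun Y : Om => (E n, ev i (jn C Y))) := by
        refine measurable_const.prodMk ((ev_meas i).comp ?_)
        exact measurable_jn.comp (measurable_const.prodMk measurable_id)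
      exact hm (measurableSet_ri hK)
    refine measurable_to_bool ?_
    have he : (fun Y : Om => decide (RI K (E n) (ev i (jn C Y)))) ⁻¹' {true}
        = {Y : Om | RI K (E n) (ev i (jn C Y))} := by
      ext Y; simp
    rw [show (fun Y : Om => F i Y n) = fun Y : Om => decide (RI K (E n) (ev i (jn C Y))) from rfl,
      he]
    exact hset
  · have hbad : ∀ n, IsMeagre {Y : Om | RI K (E n) (jn (π.g (delCol n I)) Y)} := by
      intro n
      by_contra hcon
      exact hI n ((π.g_ri _ _).2 (not_meagre_ri hK hcon))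
    have hall : ∀ᶠ Y in residual Om, ∀ n, ¬ RI K (E n) (jn (π.g (delCol n I)) Y) := by
      rw [eventually_countable_forall]
      intro n
      exact hbad n
    filter_upwards [hall] with Y hY
    set h : Om := π.f Y with hh
    set U : Om := selCols h I with hU
    have gh : RI K (π.g h) Y := (π.gf Y).1
    have hgU : RI K (π.g U) (jn C Y) := by
      refine RI.trans hK (π.g_mono hL (red_selCols h I)) (RI.trans hK (π.g_jn hK hL h I) ?_)
      exact RI.jn_ri hK (gh.trans_red (red_jn_right _ _)) (RI.of_red hK (red_jn_left _ _))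
    obtain ⟨i, hi⟩ := ev_surj _ _ hgU
    refine ⟨i, ?_⟩
    funext n
    have hiff : RI K (E n) (ev i (jn C Y)) ↔ h n = true := by
      rw [hi]
      show RI K (π.g (col n I)) (π.g U) ↔ _
      constructor
      · intro hr
        by_contra hne
        have hn : h n = false := by simpa using hne
        apply hY n
        have h0 : RI K (π.g U) (π.g (jn h (delCol n I))) :=
          π.g_mono hL (red_selCols_delCol hn I)
        refine RI.trans hK (RI.trans hK hr h0) (RI.trans hK (π.g_jn hK hL _ _) ?_)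
        exact RI.jn_ri hK (gh.trans_red (red_jn_right _ _)) (RI.of_red hK (red_jn_left _ _))
      · intro hn
        exact π.g_mono hL (red_col_selCols hn I)
    show decide (RI K (E n) (ev i (jn C Y))) = h n
    by_cases hb : h n = true
    · rw [hb]; simpa using hiff.2 hb
    · have : ¬ RI K (E n) (ev i (jn C Y)) := fun hr => hb (hiff.1 hr)
      have hn : h n = false := by simpa using hb
      rw [hn]; simpa using this

theorem reading_ctb (F : Om → Om) (hF : Measurable F) (f : Om → Om)
    (hf : ∀ Y, {X | f X = f Y}.Countable) (a : Om) (ha : a ≠ 0) : ∀ᶠ W in residual Om, ∀ᶠ r in residual Om, ∀ J,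
      F (W + tens r a) = f (W + tens r a) →
      (∀ σ, pre r J <+: σ → ¬ IsMeagre ({r | F (W + tens r a) = f (W + tens r a)} ∩ cyl σ)) →
      ∃ g, J ≤ g.unpair.1 ∧ ∃ k, F (W + tens r a + unit g) k ≠ F (W + tens r a) k := by
  classical
  let N : ℕ → Set Om := fun J => {X | ∀ g, J ≤ g.unpair.1 → F (X + unit g) = F X}
  have hN : ∀ J, MeasurableSet (N J) := by
    intro J
    have : N J = ⋂ g : ℕ, {X : Om | J ≤ g.unpair.1 → F (X + unit g) = F X} := by
      ext X; simp only [Set.mem_ofPred_eq, Set.mem_iInter, N]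
    rw [this]
    refine MeasurableSet.iInter fun g => ?_
    by_cases hg : J ≤ g.unpair.1
    · simp only [hg, true_imp_iff]
      have m1 : Measurable (fun X : Om => X + unit g) := by fun_prop
      exact measurableSet_eq_fun (hF.comp m1) hF
    · simp only [hg, false_imp_iff]
      exact MeasurableSet.univ
  have R1 : ∀ᶠ X in residual Om, ∀ J, X ∈ N J → ∃ n, Forces (pre X n) (N J) := by
    rw [eventually_countable_forall]; intro J
    obtain ⟨U, hU, h⟩ := exists_open_eq (hN J)
    filter_upwards [h] with X hX hXN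
    obtain ⟨n, hn⟩ := exists_pre_subset hU (hX.1 hXN)
    refine ⟨n, ?_⟩
    unfold Forces
    rw [pre_length]
    filter_upwards [h] with X' hX' hp
    exact hX'.2 (hn X' hp)
  have R1' : ∀ᶠ X in residual Om, ∀ J σ, Forces σ (N J) → pre X σ.length = σ → X ∈ N J := by
    rw [eventually_countable_forall]; intro J
    exact residual_forced (N J)
  have R3 : ∀ᶠ X in residual Om, ∀ k, ∃ n, Forces (pre X n) {X' | F X' k = F X k} := by
    filter_upwards [generic_continuity hF] with X hX k
    obtain ⟨n, hn⟩ := hX k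
    refine ⟨n, ?_⟩
    unfold Forces
    rw [pre_length]
    exact hn
  have R3' : ∀ᶠ X in residual Om, ∀ k (b : Bool) σ, Forces σ {X' | F X' k = b} →
      pre X σ.length = σ → F X k = b := by
    rw [eventually_countable_forall]; intro k
    rw [eventually_countable_forall]; intro b
    exact residual_forced {X' | F X' k = b}
  have hct : Continuous (fun r : Om => tens r a) := continuous_tens_left a
  have C1 := kuratowski_ulam (residual_shear R1 hct)
  have C2 : ∀ᶠ q in residual (Om × Om), ∀ s : Finset ℕ,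
      (∀ J σ, Forces σ (N J) → pre (q.1 + tens q.2 a + fz s) σ.length = σ →
        q.1 + tens q.2 a + fz s ∈ N J) ∧
      (∀ k (b : Bool) σ, Forces σ {X' | F X' k = b} →
        pre (q.1 + tens q.2 a + fz s) σ.length = σ → F (q.1 + tens q.2 a + fz s) k = b) := by
    rw [eventually_countable_forall]; intro s
    have hu : Continuous (fun r : Om => tens r a + fz s) := hct.add continuous_const
    filter_upwards [residual_shear R1' hu, residual_shear R3' hu] with q h1 h2
    simp only [← add_assoc] at h1 h2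
    exact ⟨h1, h2⟩
  have C2' := kuratowski_ulam C2
  have C3 := kuratowski_ulam (residual_shear R3 hct)
  filter_upwards [C1, C2', C3] with W h1 h2 h3
  filter_upwards [h1, h2] with r k1 k2 J hFf hnm
  by_contra hcon
  push Not at hcon
  set X0 : Om := W + tens r a with hX0
  have hX0N : X0 ∈ N J := fun g hg => funext fun k => hcon g hg k
  obtain ⟨n0, hn0⟩ := k1 J hX0N
  set p : ℕ := max n0 J with hp
  have hcount : ∀ᶠ r'' in residual Om, ¬ f (W + tens r'' a) = f X0 := by
    have hc : {r'' : Om | f (W + tens r'' a) = f X0}.Countable := by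
      have hinj : Function.Injective (fun r'' : Om => W + tens r'' a) := by
        intro x y hxy
        exact tens_inj ha (add_left_cancel hxy)
      exact (hf X0).preimage_of_injOn (f := fun r'' : Om => W + tens r'' a) hinj.injOn
    exact isMeagre_of_countable hc
  obtain ⟨r'', ⟨hS, hcyl⟩, hnr, h3r⟩ :=
    exists_mem_of_not_isMeagre (hnm (pre r p) (pre_prefix r (le_max_right _ _)))
      (hcount.and h3)
  apply hnr
  change F (W + tens r'' a) = f (W + tens r'' a) at hS
  rw [← hS, ← hFf]
  have hagree : ∀ i < p, r'' i = r i := by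
    have h0 : pre r'' (pre r p).length = pre r p := hcyl
    rw [pre_length] at h0
    exact (pre_eq_iff _ _ _).1 h0
  set D : Om := tens (r + r'') a with hD
  have hX'' : W + tens r'' a = X0 + D := by
    rw [hD, tens_add, hX0]
    have : W + tens r a + (tens r a + tens r'' a) = W + tens r'' a + (tens r a + tens r a) := by abel
    rw [this, om_add_self, add_zero]
  have hDlow : ∀ i, D i = true → p ≤ i.unpair.1 ∧ p ≤ i := by
    intro i hi
    have h4 : (r + r'') i.unpair.1 = true := by
      have : ((r + r'') i.unpair.1 && a i.unpair.2) = true := hi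
      rw [Bool.and_eq_true] at this
      exact this.1
    have h5 : ¬ i.unpair.1 < p := by
      intro hlt
      rw [Om.add_apply, hagree _ hlt] at h4
      simp at h4
    have h6 : i.unpair.1 ≤ i := Nat.unpair_left_le i
    omega
  let s : ℕ → Finset ℕ := fun i => (Finset.range i).filter (fun q => D q = true)
  have hs : ∀ i q, fz (s i) q = (decide (q < i) && D q) := by
    intro i q
    simp only [fz, s, Finset.mem_filter, Finset.mem_range]
    by_cases h1 : q < i <;> cases h2 : D q <;> simp [h1]
  have hpre0 : ∀ i, pre (X0 + fz (s i)) n0 = pre X0 n0 := by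
    intro i
    rw [pre_eq_iff]; intro q hq
    rw [Om.add_apply, hs]
    have : D q = false := by
      by_contra hne
      have h7 := (hDlow q (by simpa using hne)).2
      omega
    rw [this]; simp
  have hstep : ∀ i, F (X0 + fz (s i)) = F X0 := by
    intro i
    induction i with
    | zero =>
      have : fz (s 0) = 0 := by
        funext q; rw [hs]; simp; rfl
      rw [this, add_zero]
    | succ i ih =>
      by_cases hDi : D i = true
      · have e : fz (s (i + 1)) = fz (s i) + unit i := by
          funext q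
          rw [Om.add_apply, hs, hs]
          simp only [unit]
          by_cases hq : q = i
          · subst hq; simp [hDi]
          · have : (q < i + 1) ↔ q < i := by omega
            simp [hq, this]
        rw [e, ← add_assoc, ← ih]
        have hm : X0 + fz (s i) ∈ N J := (k2 (s i)).1 J _ hn0 (by rw [pre_length]; exact hpre0 i)
        exact hm i (le_trans (le_max_right _ _) (hDlow i hDi).1)
      · have e : fz (s (i + 1)) = fz (s i) := by
          funext q
          rw [hs, hs]
          by_cases hq : q = i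
          · subst hq; simp [hDi]
          · have : (q < i + 1) ↔ q < i := by omega
            simp [this]
        rw [e]; exact ih
  funext k
  obtain ⟨n, hn⟩ := h3r k
  change Forces (pre (W + tens r'' a) n) {X' | F X' k = F (W + tens r'' a) k} at hn
  have h8 := (k2 (s n)).2 k _ _ hn (by
    rw [pre_length, pre_eq_iff]; intro q hq
    rw [hX'', Om.add_apply, Om.add_apply, hs]; simp [hq])
  rw [← h8]
  exact congrFun (hstep n) k
theorem QIso.g_ri_self_of_ne {K L : Set Om} (hK : IsId K) (hL : IsId L) (π : QIso K L) (a : Om)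
    (ha : a ≠ 0) : RI K (π.g a) a := by
  by_contra hcon
  obtain ⟨F, hF, hrep⟩ := π.exists_borel hK hL
  obtain ⟨z0, hz0, hzL⟩ := exists_seq hL
  set ah : Om := spread a with hah
  have hah0 : ah ≠ 0 := spread_ne_zero ha
  let Rt : ((ℕ × ℕ × ℕ) × (ℕ × ℕ × ℕ)) × ℕ → Set (Om × Om) := fun t =>
    {p | Maps (enum t.1.2.2.1) (jn (F t.1.1.1 p.1) (jn (F t.1.1.2.1 p.2) (z0 t.2)))
        (F t.1.1.2.2 (sh p.1 + p.2)) ∧
      Maps (enum t.1.2.2.2) (jn (F t.1.1.2.2 (sh p.1 + p.2))
        (jn (F t.1.2.1 (sh p.1 + p.2 + p.1)) (z0 t.2))) (F t.1.1.1 p.1)}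
  have hsh : Measurable sh := continuous_sh.measurable
  have hRt : ∀ t, MeasurableSet (Rt t) := by
    intro t
    have m1 : Measurable (fun p : Om × Om => sh p.1 + p.2) := by fun_prop
    have m2 : Measurable (fun p : Om × Om => sh p.1 + p.2 + p.1) := by fun_prop
    refine MeasurableSet.inter ?_ ?_
    · have hm : Measurable (fun p : Om × Om =>
          (jn (F t.1.1.1 p.1) (jn (F t.1.1.2.1 p.2) (z0 t.2)), F t.1.1.2.2 (sh p.1 + p.2))) := by
        refine Measurable.prodMk ?_ ((hF _).comp m1)
        have hm0 : Measurable (fun p : Om × Om => jn (F t.1.1.2.1 p.2) (z0 t.2)) :=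
          measurable_jn.comp (((hF _).comp measurable_snd).prodMk measurable_const)
        exact measurable_jn.comp (((hF _).comp measurable_fst).prodMk hm0)
      exact hm (measurableSet_maps (enum t.1.2.2.1))
    · have hm : Measurable (fun p : Om × Om =>
          (jn (F t.1.1.2.2 (sh p.1 + p.2)) (jn (F t.1.2.1 (sh p.1 + p.2 + p.1)) (z0 t.2)),
            F t.1.1.1 p.1)) := by
        refine Measurable.prodMk ?_ ((hF _).comp measurable_fst)
        have hm0 : Measurable (fun p : Om × Om => jn (F t.1.2.1 (sh p.1 + p.2 + p.1)) (z0 t.2)) :=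
          measurable_jn.comp (((hF _).comp m2).prodMk measurable_const)
        exact measurable_jn.comp (((hF _).comp m1).prodMk hm0)
      exact hm (measurableSet_maps (enum t.1.2.2.2))
  -- types exist generically
  have H1 : ∀ᶠ p in residual (Om × Om), ∃ t, F t.1.1.1 p.1 = π.f p.1 ∧ F t.1.1.2.1 p.2 = π.f p.2 ∧
      F t.1.2.1 (sh p.1 + p.2 + p.1) = π.f (sh p.1 + p.2 + p.1) ∧ p ∈ Rt t := by
    filter_upwards [residual_fst (Y := Om) hrep, residual_snd (X := Om) hrep, residual_shadd hrep,
      residual_shadd' hrep] with p h1 h2 h3 h4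
    obtain ⟨c, hc⟩ := h1
    obtain ⟨a0, ha0⟩ := h2
    obtain ⟨b, hb⟩ := h3
    obtain ⟨d, hd⟩ := h4
    have r1 : RI L (F b (sh p.1 + p.2)) (jn (F c p.1) (F a0 p.2)) := by
      rw [hb, hc, ha0]
      refine RI.trans hL ?_ (π.f_jn hK hL _ _)
      exact π.f_mono hK ((red_add _ _).trans (jn_mono (red_sh _) (Red.refl _)))
    have r2 : RI L (F c p.1) (jn (F b (sh p.1 + p.2)) (F d (sh p.1 + p.2 + p.1))) := by
      rw [hb, hc, hd]
      refine RI.trans hL ?_ (π.f_jn hK hL _ _)
      refine π.f_mono hK ?_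
      have : p.1 = (sh p.1 + p.2) + (sh p.1 + p.2 + p.1) := by
        rw [← add_assoc, om_add_self, zero_add]
      conv_lhs => rw [this]
      exact red_add _ _
    obtain ⟨Z₁, hZ₁, r1⟩ := r1
    obtain ⟨Z₂, hZ₂, r2⟩ := r2
    obtain ⟨i, hi⟩ := hzL _ (hL.join _ hZ₁ _ hZ₂)
    have q1 : Red (F b (sh p.1 + p.2)) (jn (F c p.1) (jn (F a0 p.2) (z0 i))) := by
      refine r1.trans (jn_red (jn_mono (Red.refl _) (red_jn_left _ _)) ?_)
      rw [hi]
      exact (red_jn_left _ _).trans ((red_jn_right _ _).trans (red_jn_right _ _))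
    have q2 : Red (F c p.1) (jn (F b (sh p.1 + p.2))
        (jn (F d (sh p.1 + p.2 + p.1)) (z0 i))) := by
      refine r2.trans (jn_red (jn_mono (Red.refl _) (red_jn_left _ _)) ?_)
      rw [hi]
      exact (red_jn_right _ _).trans ((red_jn_right _ _).trans (red_jn_right _ _))
    obtain ⟨e, he⟩ := red_iff_enum.1 q1
    obtain ⟨e', he'⟩ := red_iff_enum.1 q2
    exact ⟨(((c, a0, b), (d, e, e')), i), hc, ha0, hd, he, he'⟩
  have H2 : ∀ᶠ p in residual (Om × Om), ∀ t, p ∈ Rt t → ∃ n, Forces₂ (pre p.1 n) (pre p.2 n) (Rt t) := by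
    rw [eventually_countable_forall]; intro t
    filter_upwards [generic_rel (hRt t)] with p hp hpt
    obtain ⟨n, hn⟩ := hp hpt
    refine ⟨n, ?_⟩
    unfold Forces₂
    simpa only [pre_length] using hn
  have H2' : ∀ᶠ p in residual (Om × Om), ∀ t σ τ, Forces₂ σ τ (Rt t) →
      pre p.1 σ.length = σ → pre p.2 τ.length = τ → p ∈ Rt t := by
    rw [eventually_countable_forall]; intro t
    exact residual_forced₂ (Rt t)
  have H3 : ∀ᶠ X in residual Om, ∀ c k, ∃ n, Forces (pre X n) {X' | F c X' k = F c X k} := by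
    rw [eventually_countable_forall]; intro c
    filter_upwards [generic_continuity (hF c)] with X hX k
    obtain ⟨n, hn⟩ := hX k
    refine ⟨n, ?_⟩
    unfold Forces
    rw [pre_length]
    exact hn
  have H3' : ∀ᶠ X in residual Om, ∀ c k (b : Bool) σ, Forces σ {X' | F c X' k = b} →
      pre X σ.length = σ → F c X k = b := by
    rw [eventually_countable_forall]; intro c
    rw [eventually_countable_forall]; intro k
    rw [eventually_countable_forall]; intro b
    exact residual_forced {X' | F c X' k = b}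
  have H5 : ∀ᶠ q in residual ((Om × Om) × (Om × Om)),
      ¬ RI K (π.g a) (jn a (jn (jn q.1.1 q.1.2) (jn q.2.1 q.2.2))) := by
    have h0 : ∀ᶠ s in residual Om, ¬ RI K (π.g a) (jn a s) := by
      by_contra hne
      exact hcon (not_meagre_ri hK hne)
    have h1 := residual_jn h0
    exact residual_comp_open (X := (Om × Om) × (Om × Om)) (Y := Om × Om)
      (f := Prod.map (fun p : Om × Om => jn p.1 p.2) (fun p : Om × Om => jn p.1 p.2))
      (continuous_jn.prodMap continuous_jn) (jnHomeo.isOpenMap.prodMap jnHomeo.isOpenMap) h1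
  -- generic choices
  have A1 : ∀ᶠ q in residual ((Om × Om) × (Om × Om)), ∀ n t σ τ, Forces₂ σ τ (Rt t) →
      pre (q.1.1 + tens q.2.1 ah + tens (q.2.1 + q.2.2) (shift n ah)) σ.length = σ →
      pre q.1.2 τ.length = τ →
      (q.1.1 + tens q.2.1 ah + tens (q.2.1 + q.2.2) (shift n ah), q.1.2) ∈ Rt t := by
    rw [eventually_countable_forall]; intro n
    have hu : Continuous (fun r : Om × Om =>
        ((tens r.1 ah + tens (r.1 + r.2) (shift n ah), (0 : Om)) : Om × Om)) := by
      refine Continuous.prodMk ?_ continuous_const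
      exact ((continuous_tens_left ah).comp continuous_fst).add
        ((continuous_tens_left (shift n ah)).comp (continuous_fst.add continuous_snd))
    filter_upwards [residual_shear H2' hu] with q hq t σ τ hf h1 h2
    have := hq t σ τ hf
    simp only [Prod.fst_add, Prod.snd_add, add_zero, ← add_assoc] at this
    have h3 := this h1 h2
    have e : (q.1.1 + tens q.2.1 ah + tens (q.2.1 + q.2.2) (shift n ah), q.1.2)
      = q.1 + (tens q.2.1 ah + tens (q.2.1 + q.2.2) (shift n ah), (0 : Om)) := by
      ext1 <;> simp [add_assoc]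
    rw [e]; exact h3
  have A2 : ∀ᶠ q in residual ((Om × Om) × (Om × Om)), ∀ n t σ τ, Forces₂ σ τ (Rt t) →
      pre (q.1.1 + tens q.2.1 ah + tens (q.2.1 + q.2.2) (shift n ah)) σ.length = σ →
      pre (q.1.2 + tens (q.2.1 + q.2.2) (shift n ah) + tens (q.2.1 + q.2.2) (shift (n + 1) ah))
        τ.length = τ →
      (q.1.1 + tens q.2.1 ah + tens (q.2.1 + q.2.2) (shift n ah),
        q.1.2 + tens (q.2.1 + q.2.2) (shift n ah) + tens (q.2.1 + q.2.2) (shift (n + 1) ah))
        ∈ Rt t := by
    rw [eventually_countable_forall]; intro n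
    have hu : Continuous (fun r : Om × Om =>
        ((tens r.1 ah + tens (r.1 + r.2) (shift n ah),
          tens (r.1 + r.2) (shift n ah) + tens (r.1 + r.2) (shift (n + 1) ah)) : Om × Om)) := by
      refine Continuous.prodMk ?_ ?_
      · exact ((continuous_tens_left ah).comp continuous_fst).add
          ((continuous_tens_left (shift n ah)).comp (continuous_fst.add continuous_snd))
      · exact ((continuous_tens_left (shift n ah)).comp (continuous_fst.add continuous_snd)).add
          ((continuous_tens_left (shift (n + 1) ah)).comp (continuous_fst.add continuous_snd))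
    filter_upwards [residual_shear H2' hu] with q hq t σ τ hf h1 h2
    have := hq t σ τ hf
    simp only [Prod.fst_add, Prod.snd_add, ← add_assoc] at this
    have h3 := this h1 h2
    have e : (q.1.1 + tens q.2.1 ah + tens (q.2.1 + q.2.2) (shift n ah),
        q.1.2 + tens (q.2.1 + q.2.2) (shift n ah) + tens (q.2.1 + q.2.2) (shift (n + 1) ah))
      = q.1 + (tens q.2.1 ah + tens (q.2.1 + q.2.2) (shift n ah),
        tens (q.2.1 + q.2.2) (shift n ah) + tens (q.2.1 + q.2.2) (shift (n + 1) ah)) := by
      ext1 <;> simp [add_assoc]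
    rw [e]; exact h3
  have A3 : ∀ᶠ q in residual ((Om × Om) × (Om × Om)), ∀ n c k (b : Bool) σ,
      Forces σ {X' | F c X' k = b} →
      pre (q.1.1 + tens q.2.1 ah + tens (q.2.1 + q.2.2) (shift n ah)) σ.length = σ →
      F c (q.1.1 + tens q.2.1 ah + tens (q.2.1 + q.2.2) (shift n ah)) k = b := by
    rw [eventually_countable_forall]; intro n
    have hu : Continuous (fun r : Om × Om =>
        ((tens r.1 ah + tens (r.1 + r.2) (shift n ah), (0 : Om)) : Om × Om)) := by
      refine Continuous.prodMk ?_ continuous_const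
      exact ((continuous_tens_left ah).comp continuous_fst).add
        ((continuous_tens_left (shift n ah)).comp (continuous_fst.add continuous_snd))
    filter_upwards [residual_shear (residual_fst (Y := Om) H3') hu] with q hq c k b σ hf h1
    have := hq c k b σ hf
    simp only [Prod.fst_add, ← add_assoc] at this
    exact this h1
  have B : ∀ᶠ q in residual ((Om × Om) × Om),
      (∃ t, F t.1.1.1 (q.1.1 + tens q.2 ah) = π.f (q.1.1 + tens q.2 ah) ∧ F t.1.1.2.1 q.1.2 = π.f q.1.2 ∧
        F t.1.2.1 (sh (q.1.1 + tens q.2 ah) + q.1.2 + (q.1.1 + tens q.2 ah)) =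
          π.f (sh (q.1.1 + tens q.2 ah) + q.1.2 + (q.1.1 + tens q.2 ah)) ∧
        (q.1.1 + tens q.2 ah, q.1.2) ∈ Rt t) ∧
      (∀ t, (q.1.1 + tens q.2 ah, q.1.2) ∈ Rt t →
        ∃ n, Forces₂ (pre (q.1.1 + tens q.2 ah) n) (pre q.1.2 n) (Rt t)) := by
    have hu : Continuous (fun r : Om => ((tens r ah, (0 : Om)) : Om × Om)) :=
      (continuous_tens_left ah).prodMk continuous_const
    filter_upwards [residual_shear H1 hu, residual_shear H2 hu] with q h1 h2
    have e : q.1 + (tens q.2 ah, (0 : Om)) = (q.1.1 + tens q.2 ah, q.1.2) := by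
      ext1 <;> simp
    rw [e] at h1 h2
    exact ⟨h1, h2⟩
  have B3 : ∀ᶠ q in residual ((Om × Om) × Om), ∀ g c k, ∃ n,
      Forces (pre (q.1.1 + tens q.2 ah + unit g) n)
        {X' | F c X' k = F c (q.1.1 + tens q.2 ah + unit g) k} := by
    rw [eventually_countable_forall]; intro g
    have hu : Continuous (fun r : Om => ((tens r ah + unit g, (0 : Om)) : Om × Om)) :=
      ((continuous_tens_left ah).add continuous_const).prodMk continuous_const
    filter_upwards [residual_shear (residual_fst (Y := Om) H3) hu] with q h1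
    simpa only [Prod.fst_add, ← add_assoc] using h1
  have B3' : ∀ᶠ q in residual ((Om × Om) × Om), ∀ c k, ∃ n,
      Forces (pre (q.1.1 + tens q.2 ah) n)
        {X' | F c X' k = F c (q.1.1 + tens q.2 ah) k} := by
    have hu : Continuous (fun r : Om => ((tens r ah, (0 : Om)) : Om × Om)) :=
      (continuous_tens_left ah).prodMk continuous_const
    filter_upwards [residual_shear (residual_fst (Y := Om) H3) hu] with q h1
    simpa only [Prod.fst_add, ← add_assoc] using h1
  have hread : ∀ᶠ W in residual Om, ∀ c, ∀ᶠ r in residual Om, ∀ J,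
      F c (W + tens r ah) = π.f (W + tens r ah) →
      (∀ σ, pre r J <+: σ →
        ¬ IsMeagre ({r | F c (W + tens r ah) = π.f (W + tens r ah)} ∩ cyl σ)) →
      ∃ g, J ≤ g.unpair.1 ∧ ∃ k, F c (W + tens r ah + unit g) k ≠ F c (W + tens r ah) k := by
    rw [eventually_countable_forall]; intro c
    refine reading_ctb (F c) (hF c) π.f ?_ ah hah0
    intro Y
    refine (countable_ri hK Y).mono fun X hXY => ?_
    change π.f X = π.f Y at hXY
    exact (π.f_ri _ _).2 (by rw [hXY]; exact RI.refl hL _)
  have KU1 := kuratowski_ulam (A1.and (A2.and (A3.and H5)))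
  have KU2 := kuratowski_ulam (B.and (B3.and B3'))
  obtain ⟨⟨W, Y⟩, hKU1, hKU2, hrd⟩ :=
    (dense_of_mem_residual (KU1.and (KU2.and (residual_fst (Y := Om) hread)))).nonempty
  have hloc : ∀ᶠ r in residual Om, ∀ c, r ∈ {r | F c (W + tens r ah) = π.f (W + tens r ah)} →
      ∃ n, ∀ σ : List Bool, pre r n <+: σ →
        ¬ IsMeagre ({r | F c (W + tens r ah) = π.f (W + tens r ah)} ∩ cyl σ) := by
    rw [eventually_countable_forall]; intro c
    exact everywhere_nonmeagre _
  have hrd' : ∀ᶠ r in residual Om, ∀ c, ∀ J,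
      F c (W + tens r ah) = π.f (W + tens r ah) →
      (∀ σ, pre r J <+: σ →
        ¬ IsMeagre ({r | F c (W + tens r ah) = π.f (W + tens r ah)} ∩ cyl σ)) →
      ∃ g, J ≤ g.unpair.1 ∧ ∃ k, F c (W + tens r ah + unit g) k ≠ F c (W + tens r ah) k := by
    rw [eventually_countable_forall]; intro c
    exact hrd c
  obtain ⟨r, hr1, hr2, hr3, hr4⟩ :=
    (dense_of_mem_residual ((kuratowski_ulam hKU1).and (hKU2.and (hloc.and hrd')))).nonempty
  obtain ⟨⟨⟨t, hSc, hSa, hSd, htR⟩, hloc2⟩, hC1, hC2⟩ := hr2
  -- the data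
  set X0 : Om := W + tens r ah with hX0
  change F t.1.1.1 X0 = π.f X0 at hSc
  obtain ⟨n1, hn1⟩ := hloc2 t htR
  obtain ⟨n2, hn2⟩ := hr3 t.1.1.1 hSc
  set J : ℕ := max n1 n2 with hJ
  have hJ1 : n1 ≤ J := le_max_left _ _
  have hJ2 : n2 ≤ J := le_max_right _ _
  have hnm : ∀ σ : List Bool, pre r J <+: σ →
      ¬ IsMeagre ({r | F t.1.1.1 (W + tens r ah) = π.f (W + tens r ah)} ∩ cyl σ) :=
    fun σ hσ => hn2 σ ((pre_prefix r hJ2).trans hσ)
  obtain ⟨g, hg, k0, hk0⟩ := hr4 t.1.1.1 J hSc hnm
  obtain ⟨n3, hn3⟩ := hC2 t.1.1.1 k0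
  obtain ⟨n4, hn4⟩ := hC1 g t.1.1.1 k0
  set js : ℕ := g.unpair.1 with hjs
  set ss : ℕ := g.unpair.2 with hss
  have hgp : Nat.pair js ss = g := Nat.pair_unpair g
  set m : ℕ := max (max n3 n4) (max (g + 1) J) with hm
  have hm3 : n3 ≤ m := by omega
  have hm4 : n4 ≤ m := by omega
  have hmg : g < m := by omega
  have hmJ : J ≤ m := by omega
  have hjsg : js ≤ g := Nat.unpair_left_le g
  have hpreσ : pre r J <+: pre (r + unit js) m := by
    have : pre r J = pre (r + unit js) J := by
      rw [pre_eq_iff]; intro i hi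
      have hne : i ≠ js := by omega
      rw [Om.add_apply]; simp [unit, hne]
    rw [this]; exact pre_prefix _ hmJ
  obtain ⟨r', ⟨hr'S, hr'c⟩, hr'1, hr'2, hr'3, hr'4⟩ :=
    exists_mem_of_not_isMeagre (hnm _ hpreσ) hr1
  change F t.1.1.1 (W + tens r' ah) = π.f (W + tens r' ah) at hr'S
  have hr'c' : ∀ i < m, r' i = (r + unit js) i := by
    have : pre r' m = pre (r + unit js) m := by
      have h0 : pre r' (pre (r + unit js) m).length = pre (r + unit js) m := hr'c
      simpa only [pre_length] using h0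
    exact (pre_eq_iff _ _ _).1 this
  set v : Om := r + r' with hv
  have hvj : ∀ j < m, v j = decide (j = js) := by
    intro j hj
    rw [hv, Om.add_apply, hr'c' j hj, Om.add_apply]
    simp only [unit]
    cases r j <;> simp
  set z : ℕ → Om := fun n => tens v (shift n ah) with hz
  have hzsh : ∀ n, sh (z n) = z (n + 1) := fun n => sh_tens v ah n
  have hzlow : ∀ n, ∀ p < J, z n p = false := by
    intro n p hp
    have h1 : p.unpair.1 ≤ p := Nat.unpair_left_le p
    show (v p.unpair.1 && shift n ah p.unpair.2) = false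
    rw [hvj _ (by omega)]
    have : p.unpair.1 ≠ js := by omega
    simp [this]
  have hpre1 : ∀ n, pre (X0 + z n) n1 = pre X0 n1 := by
    intro n; rw [pre_eq_iff]; intro i hi
    rw [Om.add_apply, hzlow n i (by omega)]; simp
  have hpre2 : ∀ n, pre (Y + z n + z (n + 1)) n1 = pre Y n1 := by
    intro n; rw [pre_eq_iff]; intro i hi
    rw [Om.add_apply, Om.add_apply, hzlow n i (by omega), hzlow (n + 1) i (by omega)]; simp
  have hR1 : ∀ n, (X0 + z n, Y) ∈ Rt t := by
    intro n
    refine hr'1 n t _ _ hn1 ?_ ?_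
    · rw [pre_length]; exact hpre1 n
    · rw [pre_length]
  have hR2 : ∀ n, (X0 + z n, Y + z n + z (n + 1)) ∈ Rt t := by
    intro n
    refine hr'2 n t _ _ hn1 ?_ ?_
    · rw [pre_length]; exact hpre1 n
    · rw [pre_length]; exact hpre2 n
  set δ : Om := sh X0 + Y + X0 with hδ
  let G : ℕ → Om := fun n => F t.1.1.1 (X0 + z n)
  let M : ℕ → Om := fun n => F t.1.1.2.2 (sh X0 + z (n + 1) + Y)
  have e1 : ∀ n, sh (X0 + z n) + Y = sh X0 + z (n + 1) + Y := by
    intro n; rw [sh_add, hzsh]
  have h1 : ∀ n, Maps (enum t.1.2.2.1) (jn (G n) (jn (F t.1.1.2.1 Y) (z0 t.2))) (M n) := by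
    intro n
    have := (hR1 n).1
    change Maps (enum t.1.2.2.1) (jn (F t.1.1.1 (X0 + z n)) (jn (F t.1.1.2.1 Y) (z0 t.2)))
      (F t.1.1.2.2 (sh (X0 + z n) + Y)) at this
    rw [e1] at this
    exact this
  have h2 : ∀ n, Maps (enum t.1.2.2.2) (jn (M n) (jn (F t.1.2.1 δ) (z0 t.2))) (G (n + 1)) := by
    intro n
    have := (hR2 (n + 1)).2
    change Maps (enum t.1.2.2.2)
      (jn (F t.1.1.2.2 (sh (X0 + z (n + 1)) + (Y + z (n + 1) + z (n + 1 + 1))))
        (jn (F t.1.2.1 (sh (X0 + z (n + 1)) + (Y + z (n + 1) + z (n + 1 + 1)) + (X0 + z (n + 1))))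
          (z0 t.2)))
      (F t.1.1.1 (X0 + z (n + 1))) at this
    have e2 : sh (X0 + z (n + 1)) + (Y + z (n + 1) + z (n + 1 + 1)) = sh X0 + z (n + 1) + Y := by
      rw [sh_add, hzsh]
      have : sh X0 + z (n + 1 + 1) + (Y + z (n + 1) + z (n + 1 + 1))
        = sh X0 + z (n + 1) + Y + (z (n + 1 + 1) + z (n + 1 + 1)) := by abel
      rw [this, om_add_self, add_zero]
    have e3 : sh X0 + z (n + 1) + Y + (X0 + z (n + 1)) = δ := by
      have : sh X0 + z (n + 1) + Y + (X0 + z (n + 1))
        = sh X0 + Y + X0 + (z (n + 1) + z (n + 1)) := by abel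
      rw [this, om_add_self, add_zero]
    rw [e2, e3] at this
    exact this
  have hit := red_iter₂ (isFn_enum _) (isFn_enum _) G M _ _ h1 h2
  -- decoding
  have hdec : Red a (ofCols G) := by
    refine red_decode G a ss k0 m (F t.1.1.1 X0 k0) ?_
    intro k hk
    have hwin : ∀ p < m, z (k * k - ss) p = (decide (p = g) && a k) := by
      intro p hp
      have := window (a := a) (v := v) (js := js) (ss := ss) (m := m) (by rw [hgp]; exact hmg)
        hvj hk hp
      rw [hgp] at this
      exact this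
    show a k = xor (F t.1.1.1 (X0 + z (k * k - ss)) k0) (F t.1.1.1 X0 k0)
    cases hak : a k with
    | false =>
      have hp0 : pre (X0 + z (k * k - ss)) n3 = pre X0 n3 := by
        rw [pre_eq_iff]; intro i hi
        rw [Om.add_apply, hwin i (by omega), hak]; simp
      have := hr'3 (k * k - ss) t.1.1.1 k0 (F t.1.1.1 X0 k0) _ hn3 (by rw [pre_length]; exact hp0)
      rw [show F t.1.1.1 (X0 + z (k * k - ss)) k0 = F t.1.1.1 X0 k0 from this]
      simp
    | true =>
      have hp0 : pre (X0 + z (k * k - ss)) n4 = pre (X0 + unit g) n4 := by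
        rw [pre_eq_iff]; intro i hi
        rw [Om.add_apply, hwin i (by omega), hak, Om.add_apply]; simp [unit]
      have := hr'3 (k * k - ss) t.1.1.1 k0 (F t.1.1.1 (X0 + unit g) k0) _ hn4
        (by rw [pre_length]; exact hp0)
      rw [show F t.1.1.1 (X0 + z (k * k - ss)) k0 = F t.1.1.1 (X0 + unit g) k0 from this]
      revert hk0
      cases F t.1.1.1 (X0 + unit g) k0 <;> cases F t.1.1.1 X0 k0 <;> simp
  have hfin : Red a (jn (G 0) (jn (jn (F t.1.1.2.1 Y) (z0 t.2)) (jn (F t.1.2.1 δ) (z0 t.2)))) :=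
    hdec.trans hit
  have hG0 : G 0 = π.f (W + tens r' ah) := by
    show F t.1.1.1 (X0 + z 0) = _
    have : X0 + z 0 = W + tens r' ah := by
      have hs0 : shift 0 ah = ah := rfl
      show W + tens r ah + tens (r + r') (shift 0 ah) = _
      rw [hs0, tens_add]
      have : W + tens r ah + (tens r ah + tens r' ah) = W + tens r' ah + (tens r ah + tens r ah) := by
        abel
      rw [this, om_add_self, add_zero]
    rw [this]; exact hr'S
  rw [hG0, hSa, hSd] at hfin
  have hle : ∀ {C D : Om}, Red C D → RI L (π.f C) (π.f D) := fun h => π.f_mono hK h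
  have hzri : ∀ D : Om, RI L (z0 t.2) D := fun D => ⟨z0 t.2, hz0 _, red_jn_right _ _⟩
  have hfin2 : RI L a (π.f (jn (W + tens r' ah) (jn Y δ))) := by
    refine RI.red_trans hfin (RI.jn_ri hL (hle (red_jn_left _ _)) (RI.jn_ri hL ?_ ?_))
    · exact RI.jn_ri hL (hle ((red_jn_left _ _).trans (red_jn_right _ _))) (hzri _)
    · exact RI.jn_ri hL (hle ((red_jn_right _ _).trans (red_jn_right _ _))) (hzri _)
  have hfin3 : RI K (π.g a) (jn (W + tens r' ah) (jn Y δ)) := (π.g_ri_iff hK hL _ _).2 hfin2
  apply hr'4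
  refine hfin3.trans_red ?_
  show Red _ (jn a (jn (jn W Y) (jn r r')))
  set Z : Om := jn a (jn (jn W Y) (jn r r')) with hZ
  have ra : Red a Z := red_jn_left _ _
  have rW : Red W Z := (red_jn_left _ _).trans ((red_jn_left _ _).trans (red_jn_right _ _))
  have rY : Red Y Z := (red_jn_right _ _).trans ((red_jn_left _ _).trans (red_jn_right _ _))
  have rr : Red r Z := (red_jn_left _ _).trans ((red_jn_right _ _).trans (red_jn_right _ _))
  have rr' : Red r' Z := (red_jn_right _ _).trans ((red_jn_right _ _).trans (red_jn_right _ _))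
  have rah : Red ah Z := (red_spread a).trans ra
  have rX0 : Red X0 Z := (red_add _ _).trans (jn_red rW ((red_tens _ _).trans (jn_red rr rah)))
  have rX' : Red (W + tens r' ah) Z :=
    (red_add _ _).trans (jn_red rW ((red_tens _ _).trans (jn_red rr' rah)))
  have rδ : Red δ Z :=
    (red_add _ _).trans (jn_red ((red_add _ _).trans (jn_red ((red_sh _).trans rX0) rY)) rX0)
  exact jn_red rX' (jn_red rY rδ)

theorem QIso.g_ri_self {K L : Set Om} (hK : IsId K) (hL : IsId L) (π : QIso K L) (a : Om) :
    RI K (π.g a) a := by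
  by_cases ha : a = 0
  · have h1 : Red a (unit 0) := by
      rw [ha]
      have : (0 : Om) = unit 0 + unit 0 := (om_add_self _).symm
      rw [this]
      exact (red_add _ _).trans (jn_red (Red.refl _) (Red.refl _))
    have hne : (unit 0 : Om) ≠ 0 := by
      intro h
      have := congrFun h 0
      simp [unit] at this
    have h2 : Red (unit 0) a := red_unit 0 a
    exact RI.trans hK (π.g_mono hL h1) ((π.g_ri_self_of_ne hK hL _ hne).trans_red h2)
  · exact π.g_ri_self_of_ne hK hL a ha

theorem QIso.f_ri_self {K L : Set Om} (hK : IsId K) (hL : IsId L) (π : QIso K L) (a : Om) :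
    RI L (π.f a) a :=
  π.symm.g_ri_self hL hK a

end Vale.Agent.P327.H228
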