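import Vale.Agent.P327.H228.Ideal
import Vale.Agent.P327.H228.Defs

/-!
From quotient isomorphisms on reals to isomorphisms between final segments of the quotients of the
Turing degrees by countable ideals.
-/

namespace Vale.Agent.P327.H228

/-- The degree of a real. -/
noncomputable def dr (X : Om) : DT := ⟨degree {n | X n = true}, Set.mem_range_self _⟩

theorem dr_le_iff (X Y : Om) : dr X ≤ dr Y ↔ Red X Y := by
  have e : ∀ X : Om, degree {n | X n = true} =
      toAntisymmetrization TuringReducible fun n => Part.some (X n).toNat := by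
    intro X
    unfold degree
    congr 1
    funext n
    cases h : X n <;> simp [h]
  rw [red_iff_turing]
  change degree _ ≤ degree _ ↔ _
  rw [e, e]
  exact Iff.rfl

theorem dr_surj (a : DT) : ∃ X : Om, dr X = a := by
  classical
  obtain ⟨_, A, rfl⟩ := a
  refine ⟨fun n => decide (n ∈ A), Subtype.ext ?_⟩
  change degree _ = degree A
  congr 1
  ext n
  simp

section

variable {I J : Order.Ideal DT}

/-- The reals with degree in the ideal. -/
def idr (I : Order.Ideal DT) : Set Om := {X | dr X ∈ I}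

theorem isId_idr (hI : (I : Set DT).Countable) : IsId (idr I) where
  ctb := by
    have h : idr I = ⋃ a ∈ (I : Set DT), {X | dr X = a} := by
      ext X
      constructor
      · intro hX
        exact Set.mem_iUnion₂.2 ⟨dr X, hX, rfl⟩
      · intro hX
        obtain ⟨a, ha, hXa⟩ := Set.mem_iUnion₂.1 hX
        change dr X = a at hXa
        rw [← hXa] at ha
        exact ha
    rw [h]
    refine hI.biUnion fun a _ => ?_
    obtain ⟨A, rfl⟩ := dr_surj a
    refine (countable_red A).mono fun X hX => ?_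
    change dr X = dr A at hX
    exact (dr_le_iff X A).1 hX.le
  ne := by
    obtain ⟨a, ha⟩ := I.nonempty
    obtain ⟨A, rfl⟩ := dr_surj a
    exact ⟨A, ha⟩
  join X hX Y hY := by
    obtain ⟨c, hc, h1, h2⟩ := I.directed _ hX _ hY
    obtain ⟨Z, rfl⟩ := dr_surj c
    exact I.lower ((dr_le_iff _ _).2 (jn_red ((dr_le_iff _ _).1 h1) ((dr_le_iff _ _).1 h2))) hc

theorem cls_le_iff (a b : DT) :
    cls I a ≤ cls I b ↔ ∃ c ∈ I, ∀ u, b ≤ u → c ≤ u → a ≤ u := Iff.rfl

theorem cls_dr_le_iff (X Y : Om) : cls I (dr X) ≤ cls I (dr Y) ↔ RI (idr I) X Y := by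
  rw [cls_le_iff]
  constructor
  · rintro ⟨c, hc, h⟩
    obtain ⟨Z, rfl⟩ := dr_surj c
    refine ⟨Z, hc, (dr_le_iff _ _).1 (h _ ?_ ?_)⟩
    · exact (dr_le_iff _ _).2 (red_jn_left _ _)
    · exact (dr_le_iff _ _).2 (red_jn_right _ _)
  · rintro ⟨Z, hZ, h⟩
    refine ⟨dr Z, hZ, fun u h1 h2 => ?_⟩
    obtain ⟨W, rfl⟩ := dr_surj u
    exact (dr_le_iff _ _).2 (h.trans (jn_red ((dr_le_iff _ _).1 h1) ((dr_le_iff _ _).1 h2)))

theorem cls_surj (q : DQ I) : ∃ a : DT, cls I a = q := by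
  induction q using Quotient.inductionOn' with
  | h m => exact ⟨m.val, rfl⟩

theorem cls_dr_surj (q : DQ I) : ∃ X : Om, cls I (dr X) = q := by
  obtain ⟨a, rfl⟩ := cls_surj q
  obtain ⟨X, rfl⟩ := dr_surj a
  exact ⟨X, rfl⟩

/-- The reals below an element of the quotient. -/
def low (q : DQ I) : Set Om := {Z | cls I (dr Z) ≤ q}

theorem mem_low {q : DQ I} {Z : Om} : Z ∈ low q ↔ cls I (dr Z) ≤ q := Iff.rfl

theorem isId_low (hI : (I : Set DT).Countable) (q : DQ I) : IsId (low q) := by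
  obtain ⟨A, rfl⟩ := cls_dr_surj q
  have h : ∀ Z, Z ∈ low (cls I (dr A)) ↔ RI (idr I) Z A := fun Z => cls_dr_le_iff Z A
  refine ⟨?_, ⟨A, mem_low.2 le_rfl⟩, fun X hX Y hY => ?_⟩
  · exact (countable_ri (isId_idr hI) A).mono fun Z hZ => (h Z).1 hZ
  · exact (h _).2 (RI.jn_ri (isId_idr hI) ((h _).1 hX) ((h _).1 hY))

theorem ri_low (hI : (I : Set DT).Countable) (A X Y : Om) :
    RI (low (cls I (dr A))) X Y ↔ RI (idr I) X (jn Y A) := by
  have hK := isId_idr hI
  constructor
  · rintro ⟨Z, hZ, h⟩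
    have hZ : RI (idr I) Z A := (cls_dr_le_iff Z A).1 hZ
    exact RI.red_trans h (RI.jn_mono hK (RI.refl hK _) hZ)
  · rintro ⟨W, hW, h⟩
    refine ⟨jn A W, (cls_dr_le_iff _ _).2 ⟨W, hW, Red.refl _⟩, h.trans ?_⟩
    refine jn_red (jn_mono (Red.refl _) (red_jn_left _ _)) ?_
    exact (red_jn_right _ _).trans (red_jn_right _ _)

theorem cls_ge_of_red {X Y : Om} (h : Red X Y) : cls I (dr X) ≤ cls I (dr Y) := by
  obtain ⟨c, hc⟩ := I.nonempty
  exact (cls_le_iff _ _).2 ⟨c, hc, fun u hu _ => ((dr_le_iff _ _).2 h).trans hu⟩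

theorem low_down (q : DQ I) {X Y : Om} (h : Red X Y) (hY : Y ∈ low q) : X ∈ low q := by
  exact mem_low.2 (le_trans (cls_ge_of_red h) (mem_low.1 hY))

end

/-- Isomorphic quotients modulo downward closed sets of reals are equal. -/
theorem QIso.subset {K L : Set Om} (hK : IsId K) (hL : IsId L)
    (dL : ∀ X Y, Red X Y → Y ∈ L → X ∈ L) (π : QIso K L) : K ⊆ L := by
  intro Z hZ
  have h1 : RI K (π.g Z) 0 := by
    refine RI.trans hK (π.g_ri_self hK hL Z) ⟨Z, hZ, red_jn_right _ _⟩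
  have h2 : RI L (π.f (π.g Z)) (π.f 0) := (π.f_ri _ _).1 h1
  have h3 : RI L Z 0 := RI.trans hL (π.fg Z).2 (RI.trans hL h2 (π.f_ri_self hK hL 0))
  obtain ⟨W, hW, h⟩ := h3
  refine dL _ _ (h.trans (jn_red ?_ (Red.refl _))) hW
  have : (0 : Om) = W + W := (om_add_self _).symm
  rw [this]
  exact (red_add _ _).trans (jn_red (Red.refl _) (Red.refl _))

section

variable {I J : Order.Ideal DT} {U : Set (DQ I)} {V : Set (DQ J)}

/-- The function on reals given by an order isomorphism between final segments, on the cone above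
the class of `A`. -/
noncomputable def up (hU : IsUpperSet U) (e : U ≃o V) (A : Om) (hA : cls I (dr A) ∈ U) (X : Om) :
    Om :=
  (cls_dr_surj (e ⟨cls I (dr (jn X A)), hU (cls_ge_of_red (red_jn_right _ _)) hA⟩ : DQ J)).choose

theorem cls_up (hU : IsUpperSet U) (e : U ≃o V) (A : Om) (hA : cls I (dr A) ∈ U) (X : Om) :
    cls J (dr (up hU e A hA X)) =
      e ⟨cls I (dr (jn X A)), hU (cls_ge_of_red (red_jn_right _ _)) hA⟩ :=
  (cls_dr_surj (e ⟨cls I (dr (jn X A)), hU (cls_ge_of_red (red_jn_right _ _)) hA⟩ : DQ J)).choose_spec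

theorem up_ri (hI : (I : Set DT).Countable) (hJ : (J : Set DT).Countable) (hU : IsUpperSet U)
    (e : U ≃o V) (A B : Om) (hA : cls I (dr A) ∈ U) (hB : cls J (dr B) = e ⟨cls I (dr A), hA⟩)
    (X Y : Om) : RI (low (cls I (dr A))) X Y ↔
      RI (low (cls J (dr B))) (up hU e A hA X) (up hU e A hA Y) := by
  have hK := isId_idr hI
  have hL := isId_idr hJ
  have h1 : RI (idr I) X (jn Y A) ↔ RI (idr I) (jn X A) (jn Y A) :=
    ⟨fun h => RI.jn_ri hK h (RI.of_red hK (red_jn_right _ _)), fun h => RI.red_trans (red_jn_left _ _) h⟩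
  have h2 : RI (idr J) B (up hU e A hA Y) := by
    rw [← cls_dr_le_iff, cls_up, hB]
    exact e.monotone (Subtype.mk_le_mk.2 (cls_ge_of_red (red_jn_right _ _)))
  have h3 : RI (idr J) (up hU e A hA X) (jn (up hU e A hA Y) B) ↔
      RI (idr J) (up hU e A hA X) (up hU e A hA Y) :=
    ⟨fun h => RI.trans hL h (RI.jn_ri hL (RI.refl hL _) h2), fun h => h.trans_red (red_jn_left _ _)⟩
  rw [ri_low hI, ri_low hJ, h1, h3, ← cls_dr_le_iff, ← cls_dr_le_iff, cls_up, cls_up,
    Subtype.coe_le_coe, e.le_iff_le, Subtype.mk_le_mk]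

theorem up_up (hI : (I : Set DT).Countable) (hJ : (J : Set DT).Countable) (hU : IsUpperSet U)
    (hV : IsUpperSet V) (e : U ≃o V) (A B : Om) (hA : cls I (dr A) ∈ U) (hB' : cls J (dr B) ∈ V)
    (hB : cls J (dr B) = e ⟨cls I (dr A), hA⟩) (Y : Om) :
    RI (low (cls J (dr B))) (up hU e A hA (up hV e.symm B hB' Y)) Y ∧
      RI (low (cls J (dr B))) Y (up hU e A hA (up hV e.symm B hB' Y)) := by
  have hL := isId_idr hJ
  set Z : Om := up hV e.symm B hB' Y with hZ
  have h0 := cls_up hV e.symm B hB' Y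
  -- the class of `Z` is above the class of `A`
  have hAe : (⟨cls I (dr A), hA⟩ : U) = e.symm ⟨cls J (dr B), hB'⟩ := by
    rw [e.symm_apply_eq.2]
    exact Subtype.ext hB
  have h1 : cls I (dr A) ≤ cls I (dr Z) := by
    rw [hZ, h0]
    have h2 : (⟨cls I (dr A), hA⟩ : U) ≤ e.symm ⟨cls J (dr (jn Y B)),
        hV (cls_ge_of_red (red_jn_right _ _)) hB'⟩ := by
      rw [hAe]
      exact e.symm.monotone (Subtype.mk_le_mk.2 (cls_ge_of_red (red_jn_right _ _)))
    exact h2
  have h2 : cls I (dr (jn Z A)) = cls I (dr Z) := by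
    apply le_antisymm
    · rw [cls_dr_le_iff] at h1 ⊢
      exact RI.jn_ri (isId_idr hI) (RI.refl (isId_idr hI) _) h1
    · exact cls_ge_of_red (red_jn_left _ _)
  have h3 : cls J (dr (up hU e A hA Z)) = cls J (dr (jn Y B)) := by
    rw [cls_up]
    have h4 : (⟨cls I (dr (jn Z A)), hU (cls_ge_of_red (red_jn_right _ _)) hA⟩ : U) =
        e.symm ⟨cls J (dr (jn Y B)), hV (cls_ge_of_red (red_jn_right _ _)) hB'⟩ := by
      apply Subtype.ext
      change cls I (dr (jn Z A)) = _
      rw [h2]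
      exact h0
    rw [h4, e.apply_symm_apply]
  rw [ri_low hJ, ri_low hJ]
  constructor
  · rw [← cls_dr_le_iff, h3]
  · have h5 : RI (idr J) (jn Y B) (up hU e A hA Z) := by
      rw [← cls_dr_le_iff, h3]
    exact (RI.red_trans (red_jn_left _ _) h5).trans_red (red_jn_left _ _)

/-- The quotient isomorphism between the cones above corresponding elements. -/
noncomputable def toQIso (hI : (I : Set DT).Countable) (hJ : (J : Set DT).Countable)
    (hU : IsUpperSet U) (hV : IsUpperSet V) (e : U ≃o V) (A B : Om) (hA : cls I (dr A) ∈ U)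
    (hB' : cls J (dr B) ∈ V) (hB : cls J (dr B) = e ⟨cls I (dr A), hA⟩)
    (hAe : cls I (dr A) = e.symm ⟨cls J (dr B), hB'⟩) :
    QIso (low (cls I (dr A))) (low (cls J (dr B))) where
  f := up hU e A hA
  g := up hV e.symm B hB'
  f_ri := up_ri hI hJ hU e A B hA hB
  g_ri := up_ri hJ hI hV e.symm B A hB' hAe
  fg := up_up hI hJ hU hV e A B hA hB' hB
  gf := up_up hJ hI hV hU e.symm B A hB' hA hAe

/-- Corresponding elements of isomorphic final segments have the same lower sets of degrees. -/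
theorem core (hI : (I : Set DT).Countable) (hJ : (J : Set DT).Countable)
    (hU : IsUpperSet U) (hV : IsUpperSet V) (e : U ≃o V) (x : U) (a : DT) :
    cls I a ≤ x ↔ cls J a ≤ e x := by
  obtain ⟨A, hA⟩ := cls_dr_surj (x : DQ I)
  obtain ⟨B, hB⟩ := cls_dr_surj (e x : DQ J)
  obtain ⟨X, rfl⟩ := dr_surj a
  have hAU : cls I (dr A) ∈ U := hA ▸ x.2
  have hBV : cls J (dr B) ∈ V := hB ▸ (e x).2
  have hx' : x = ⟨cls I (dr A), hAU⟩ := Subtype.ext hA.symm
  have hex : e x = ⟨cls J (dr B), hBV⟩ := Subtype.ext hB.symm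
  have h1 : cls J (dr B) = e ⟨cls I (dr A), hAU⟩ := by rw [← hx', hB]
  have h2 : cls I (dr A) = e.symm ⟨cls J (dr B), hBV⟩ := by
    rw [← hex, e.symm_apply_apply, hA]
  have π := toQIso hI hJ hU hV e A B hAU hBV h1 h2
  have s1 : low (cls I (dr A)) ⊆ low (cls J (dr B)) :=
    π.subset (isId_low hI _) (isId_low hJ _) (fun _ _ h => low_down _ h)
  have s2 : low (cls J (dr B)) ⊆ low (cls I (dr A)) :=
    π.symm.subset (isId_low hJ _) (isId_low hI _) (fun _ _ h => low_down _ h)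
  rw [← hA, ← hB]
  exact ⟨fun h => s1 h, fun h => s2 h⟩

end

end Vale.Agent.P327.H228
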